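import Vale.Agent.P022D.Gt.Defs
import Vale.Agent.P022D.Nw.Defs
import Vale.Agent.P022D.V.Cla

/-!
# P022D, rows CLG and CLG0
-/

set_option linter.all false

noncomputable section

namespace Vale.Agent.P022D

open Vale.Agent.P022D.V

theorem Gt.clg (O : Type) [CommRing O] [Co O] : Gt.CLG O := by
  rintro M N₁ N' _ u i hM ⟨N₂, h2⟩ h3 hu Q hQ w ⟨hw, hU⟩
  exact Cl.clg0 (N₂ := N₂) ⟨hM, h2, by rw [h3, h2]; ring⟩ i hu Q hQ hw hU

theorem Nw.clg0 (O : Type) [CommRing O] [Co O] : Nw.CLG0 O := by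
  rintro M N₁ N₂ N' _ u i hM h2 - h3 hu Q hQ w ⟨hw, hU⟩
  exact Cl.clg0 ⟨hM, h2, h3⟩ i hu Q hQ hw hU

end Vale.Agent.P022D
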