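import Vale.Agent.P022D.Gt.Defs
import Vale.Agent.P022D.V.Clad

/-!
# P022D, block Gt: the twisted dictionary for the divisible carrier
-/

set_option autoImplicit false
set_option linter.all false

open Matrix
open scoped MatrixGroups

noncomputable section

namespace Vale.Agent.P022D.Gt

open Vale.Agent.P022 Vale.Agent.P022D.V

/-- the unipotent elements which are `1` modulo `N` -/
def HU (M N : ℕ) : Subgroup (GM M) where
  carrier := Uq M N
  one_mem' := ⟨0, Units.ext (by
    ext i j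
    fin_cases i <;> fin_cases j <;> simp [un_coe])⟩
  mul_mem' := by
    rintro _ _ ⟨x, rfl⟩ ⟨y, rfl⟩
    refine ⟨x + y, Units.ext ?_⟩
    ext i j
    fin_cases i <;> fin_cases j <;> simp [un_coe, Matrix.mul_apply, mul_add, add_comm]
  inv_mem' := by
    rintro _ ⟨x, rfl⟩
    refine ⟨-x, eq_inv_of_mul_eq_one_left (Units.ext ?_)⟩
    ext i j
    fin_cases i <;> fin_cases j <;> simp [un_coe, Matrix.mul_apply]

variable (O : Type) [CommRing O] [Co O]

theorem clgd (hC : CLG O) (hL : LIFT O) (hV : DIV O) : CLGD O := by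
  intro M N₁ N' _ u i hM h3 h1 h2 hu v hv
  obtain ⟨j, j1, -, j3⟩ := Cd.tr_XD hL hM h3 (HU M N₁) (fun _ => 1) rfl
    (fun _ _ _ _ => (mul_one _).symm) u u hV i 0 hv
  exact ⟨{j, j + 1}, by simp [j1], fun Q hQ => j3 Q
    (hC M N₁ N' u j hM h1 h2 hu Q (hQ _ (by simp)))
    (hC M N₁ N' u (j + 1) hM h1 h2 hu Q (hQ _ (by simp)))⟩

end Vale.Agent.P022D.Gt
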