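import Vale.Agent.P022D.Gt.Defs

/-!
# P022D, block Gt: existence of the Galois operators
-/

set_option linter.all false

open Matrix
open scoped MatrixGroups NumberField

noncomputable section

namespace Vale.Agent.P022D.Gt

open Vale.Agent.P022 Vale.Agent.P022D.V Vale.Agent.P022.H853

section formal

variable {M : ℕ} {S R : Type} [CommRing S] [CommRing R] [Algebra S R]

theorem un_dg' (a d : (ZMod M)ˣ) (y : ZMod M) :
    un y * dg a d = dg a d * un (y * ((a⁻¹ * d : (ZMod M)ˣ) : ZMod M)) := by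
  apply Units.ext
  rw [Units.val_mul, Units.val_mul, un_coe, un_coe, dg_coe]
  ext i j
  fin_cases i <;> fin_cases j <;> simp [Matrix.mul_apply, Fin.sum_univ_two]
  rw [mul_left_comm, ← mul_assoc (a : ZMod M), Units.mul_inv, one_mul]

theorem un0 : (un 0 : GM M) = 1 := by
  apply Units.ext
  rw [un_coe]
  ext i j; fin_cases i <;> fin_cases j <;> simp

theorem Uq_dg {N : ℕ} (a d : (ZMod M)ˣ) {w : FT M R} (h : w ∈ Iv S R (Uq M N)) :
    rt S R (dg a d) w ∈ Iv S R (Uq M N) := by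
  rw [mem_Iv] at h ⊢
  rintro _ ⟨x, rfl⟩
  rw [rt_rt, un_dg', ← rt_rt, h _ ⟨x * ((a⁻¹ * d : (ZMod M)ˣ) : ZMod M), by rw [mul_assoc]⟩]

theorem Iv_T2 {H : Set (GM M)} (i p : ℕ) (u : (ZMod M)ˣ) {w : FT M R} (h : w ∈ Iv S R H) :
    T2 S R i p u w ∈ Iv S R H := by
  rw [mem_Iv] at h ⊢
  intro g hg
  rw [rt_T2, h g hg]

theorem Uq_self (w : FT M R) : w ∈ Iv S R (Uq M M) := by
  rw [mem_Iv]
  rintro _ ⟨x, rfl⟩
  beta_reduce
  rw [ZMod.natCast_self, zero_mul, un0, rt_one]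

theorem ep_ep' (k : ℕ) (w : FT M R) : ep S R M k (ep S R M k w) = w := by
  rw [ep_apply, ep_apply, map_zsmul, rt_rt, dg_mul, neg_mul_neg, one_mul, dg_one, rt_one,
    smul_smul, ← mul_pow, neg_mul_neg, one_mul, one_pow, one_smul]

theorem pw_pw (i : ℕ) {p p' : ℕ} (hp : Odd p) (hp' : Odd p') (w : FT M R) :
    pw S R M i p (pw S R M i p' w) = pw S R M i (p * p') w := by
  obtain ⟨a, rfl⟩ := hp
  obtain ⟨b, rfl⟩ := hp'
  have e1 : (2 * a + 1 - 1) / 2 = a := by omega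
  have e2 : (2 * b + 1 - 1) / 2 = b := by omega
  have e3 : ((2 * a + 1) * (2 * b + 1) - 1) / 2 = 2 * a * b + a + b := by
    have : (2 * a + 1) * (2 * b + 1) = 2 * (2 * a * b + a + b) + 1 := by ring
    omega
  rw [pw_apply, pw_apply, pw_apply, e1, e2, e3, map_add, map_nsmul, map_sub, ep_ep']
  module

theorem S2_S2 (i : ℕ) {p p' : ℕ} (hp : Odd p) (hp' : Odd p') (u u' : (ZMod M)ˣ) (w : FT M R) :
    S2 S R i p u (S2 S R i p' u' w) = S2 S R i (p * p') (u * u') w := by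
  have e : pw S R M i p (Sf S R i p' u' (pw S R M i p' w)) =
      Sf S R i p' u' (pw S R M i p (pw S R M i p' w)) :=
    com_Sf _ (fun g => rt_pw g i p) i p' u' _
  rw [S2_apply, S2_apply, S2_apply, e, pw_pw i hp hp', Sf_apply, Sf_apply, Sf_apply, map_nsmul,
    rt_rt, dg_mul, smul_smul, mul_pow]

theorem S2_one (i : ℕ) (u : (ZMod M)ˣ) (w : FT M R) : S2 S R i 1 u w = rt S R (dg u u) w := by
  rw [S2_apply, pw_apply, Sf_apply]
  simp

theorem nsmul_mod {X : Type} [AddCommGroup X] {n a b : ℕ} {w : X} (h : n • w = 0)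
    (e : a ≡ b [MOD n]) : a • w = b • w := by
  rw [← Nat.div_add_mod a n, ← Nat.div_add_mod b n, e, add_smul, add_smul, mul_comm n, mul_comm n,
    mul_smul, mul_smul, h, smul_zero, smul_zero]

theorem S2_mod (i : ℕ) {a p p' : ℕ} (hp : Odd p) (hp' : Odd p') (e : p ≡ p' [MOD 2 ^ (a + 1)])
    (u : (ZMod M)ˣ) {w : FT M R} (h : 2 ^ a • w = 0) : S2 S R i p u w = S2 S R i p' u w := by
  have e1 : (p - 1) / 2 ≡ (p' - 1) / 2 [MOD 2 ^ a] := by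
    obtain ⟨x, rfl⟩ := hp
    obtain ⟨y, rfl⟩ := hp'
    have e2 : (2 * x + 1 - 1) / 2 = x := by omega
    have e3 : (2 * y + 1 - 1) / 2 = y := by omega
    rw [e2, e3]
    have e4 := Nat.ModEq.add_right_cancel' 1 e
    rw [pow_succ'] at e4
    exact Nat.ModEq.mul_left_cancel' two_ne_zero e4
  have e5 : pw S R M i p w = pw S R M i p' w := by
    rw [pw_apply, pw_apply, nsmul_mod _ e1]
    rw [smul_sub, ← map_nsmul, h, map_zero, sub_zero]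
  rw [S2_apply, S2_apply, e5, Sf_apply, Sf_apply]
  refine nsmul_mod ?_ ((e.of_dvd (pow_dvd_pow 2 (Nat.le_succ a))).pow i)
  rw [← map_nsmul, ← map_nsmul, h, map_zero, map_zero]

end formal

theorem cyc_inert {m p : ℕ} [NeZero m] (hp : p.Prime) (hm : ¬ p ∣ m) {σ : GQ}
    (hσ : G.Inert p σ) : cyc m σ = 1 := by
  obtain ⟨P, hP, hlP, hx⟩ := hσ
  have hmP : (m : 𝓞 Qb) ∉ P := fun h =>
    hm (by exact_mod_cast H20.dvd_of_mem hp hP hlP (d := (m : ℤ)) (by exact_mod_cast h))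
  have h := cyc_of_pow (m := m) (q := 1) dvd_rfl hP hmP (by simpa using hx)
  apply Units.ext
  rw [← ZMod.natCast_zmod_val ((cyc m σ : (ZMod m)ˣ) : ZMod m), Units.val_one, ← Nat.cast_one]
  exact (ZMod.natCast_eq_natCast_iff _ _ _).2 h

theorem cop_of {M p : ℕ} {u : (ZMod M)ˣ} (hu : (u : ZMod M) = p) : Nat.Coprime p M :=
  (ZMod.isUnit_iff_coprime p M).1 (hu ▸ u.isUnit)

theorem nd_of {M p : ℕ} {u : (ZMod M)ˣ} (hp : p.Prime) (hu : (u : ZMod M) = p) : ¬ p ∣ M :=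
  (Nat.Prime.coprime_iff_not_dvd hp).1 (cop_of hu)

theorem nd2 {M p : ℕ} (hp : p.Prime) (h : ¬ p ∣ 2 * M) : p ≠ 2 ∧ (cl M p : ZMod M) = p :=
  ⟨fun e => h (e ▸ dvd_mul_right 2 M), cl_coe ((Nat.Prime.coprime_iff_not_dvd hp).2
    fun e => h (e.mul_left 2))⟩

theorem cyc_eq {M p : ℕ} [NeZero M] {u : (ZMod M)ˣ} (hp : p.Prime) (hu : (u : ZMod M) = p)
    {φ : GQ} (hφ : IsFrob p φ) : cyc M φ = u :=
  Units.ext ((cyc_frob hp (nd_of hp hu) hφ).trans hu.symm)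

variable {O : Type} [CommRing O] [Co O]

/-- the operators on a torus stable submodule -/
theorem core (hC : CLGD O) (hD : DIV O) (hG : G.GAL2) {M N₁ i ℓ₀ : ℕ} [NeZero M] (lv : Lv M ℓ₀)
    (hN : N₁ ∣ M) (V : Submodule O (FT M (RD O))) (le : V ≤ XD O M i ⊓ Iv O _ (Uq M N₁))
    (hT : ∀ (p : ℕ) (u : (ZMod M)ˣ), p.Prime → p ≠ 2 → (u : ZMod M) = p → ∀ v ∈ V,
      T2 O _ i p u v ∈ V) (hR : ∀ a d, ∀ v ∈ V, rt O _ (dg a d) v ∈ V)
    (inj : ∀ v ∈ V, T2 O _ i ℓ₀ (cl M ℓ₀) v = 0 → v = 0) :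
    ∃ t d : GQ → Module.End O V, G.Law t d ∧
      (∀ (p : ℕ) (u : (ZMod M)ˣ) φ, p.Prime → p ≠ 2 → (u : ZMod M) = p → IsFrob p φ → ∀ v,
        (t φ v : FT M (RD O)) = T2 O _ i p u v ∧ (d φ v : FT M (RD O)) = S2 O _ i p u v) ∧
      (∀ p : ℕ, p.Prime → ¬ p ∣ 2 * M → ∀ σ, G.Inert p σ → d σ = 1 ∧ ∀ g, t (g * σ) = t g) ∧
      (∀ v : V, ∃ s : Set V, s.Finite ∧ v ∈ s ∧ ∀ w ∈ s, ∀ g, ∃ w₁ ∈ s, ∃ w₂ ∈ s, ∃ h₁ h₂,
        (t g w : FT M (RD O)) = rt O _ h₁ w₁ ∧ (d g w : FT M (RD O)) = rt O _ h₂ w₂) ∧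
      (∀ c, IsConj c → d c = -1) ∧
      ∀ M' q, N₁ * M = M' * q → q.Prime → ¬ q ∣ M' → ∀ σ, G.Inert q σ → ∀ v : V,
        (t σ v : FT M (RD O)) = rt O _ (dg 1 (cyc M σ)) v +
          rt O _ (dg 1 (cyc M σ)⁻¹) (d σ v) := by
  have hN0 : N₁ ≠ 0 := fun e => NeZero.ne M (by rwa [e, zero_dvd_iff] at hN)
  haveI : NeZero (N₁ * M) := ⟨mul_ne_zero hN0 (NeZero.ne M)⟩
  have pa : ∀ p : ℕ, p.Prime → ¬ p ∣ 2 * M → ¬ p ∣ 2 * (N₁ * M) := fun p hp h e => by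
    rcases (Nat.Prime.dvd_mul hp).1 e with e | e
    · exact h (e.mul_right M)
    · exact h (((Nat.Prime.dvd_mul hp).1 e).elim (fun e => (e.trans hN).mul_left 2)
        fun e => e.mul_left 2)
  have pb : ∀ ℓ : PA (N₁ * M), ¬ ℓ.1 ∣ 2 * M := fun ℓ e =>
    ℓ.2.2 (e.trans (mul_dvd_mul_left 2 (dvd_mul_left M N₁)))
  let u : PA (N₁ * M) → (ZMod M)ˣ := fun ℓ => cl M ℓ.1
  have hS : ∀ (p : ℕ) (a : (ZMod M)ˣ), ∀ v ∈ V, S2 O _ i p a v ∈ V := fun p a v hv => by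
    rw [S2_apply, Sf_apply, pw_apply, ep_apply]
    exact nsmul_mem (hR _ _ _ (add_mem hv (nsmul_mem (sub_mem hv (zsmul_mem (hR _ _ _ hv) _)) _))) _
  let ρ : (ZMod M)ˣ →* Module.End O V :=
    { toFun := fun b => (rt O (RD O) (dg 1 b)).toLinearMap.restrict (hR 1 b)
      map_one' := LinearMap.ext fun v => Subtype.ext (by
        change rt O (RD O) (dg 1 1) (v : FT M (RD O)) = v
        rw [dg_one, rt_one])
      map_mul' := fun a b => LinearMap.ext fun v => Subtype.ext (by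
        change rt O (RD O) (dg 1 (a * b)) (v : FT M (RD O)) =
          rt O (RD O) (dg 1 a) (rt O (RD O) (dg 1 b) v)
        rw [rt_rt, dg_mul, one_mul]) }
  have ρc : ∀ b (v : V), (ρ b v : FT M (RD O)) = rt O _ (dg 1 b) v := fun _ _ => rfl
  let α : G.Wd (N₁ * M) →ₐ[ℤ] Module.End O V := FreeAlgebra.lift ℤ (Sum.elim
    (fun ℓ => (T2 O (RD O) i ℓ.1 (u ℓ)).restrict
      (hT ℓ.1 (u ℓ) ℓ.2.1 (nd2 ℓ.2.1 (pb ℓ)).1 (nd2 ℓ.2.1 (pb ℓ)).2) * ρ (u ℓ)⁻¹)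
    (fun ℓ => (S2 O (RD O) i ℓ.1 (u ℓ)).restrict (hS ℓ.1 (u ℓ)) * ρ ((u ℓ)⁻¹ * (u ℓ)⁻¹)))
  have αc : ∀ Q (v : V), (α Q v : FT M (RD O)) = wd O (RD O) i u u Q v := by
    intro Q
    induction Q using FreeAlgebra.induction with
    | grade0 r =>
      intro v
      rw [AlgHom.commutes, AlgHom.commutes]
      simp only [Algebra.algebraMap_eq_smul_one, LinearMap.smul_apply, Module.End.one_apply,
        Submodule.coe_smul_of_tower]
    | grade1 s =>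
      intro v
      rw [wd, FreeAlgebra.lift_ι_apply, FreeAlgebra.lift_ι_apply]
      cases s <;> rfl
    | mul x y hx hy =>
      intro v
      rw [map_mul, map_mul, Module.End.mul_apply, Module.End.mul_apply, hx, hy]
    | add x y hx hy =>
      intro v
      rw [map_add, map_add, LinearMap.add_apply, LinearMap.add_apply, Submodule.coe_add, hx, hy]
  have αT : ∀ ℓ (v : V), (α (G.wT ℓ) v : FT M (RD O)) =
      T2 O _ i ℓ.1 (u ℓ) (rt O _ (dg 1 (u ℓ)⁻¹) v) := fun ℓ v => by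
    rw [αc, wd, G.wT, FreeAlgebra.lift_ι_apply]; rfl
  have αS : ∀ ℓ (v : V), (α (G.wS ℓ) v : FT M (RD O)) =
      S2 O _ i ℓ.1 (u ℓ) (rt O _ (dg 1 ((u ℓ)⁻¹ * (u ℓ)⁻¹)) v) := fun ℓ v => by
    rw [αc, wd, G.wS, FreeAlgebra.lift_ι_apply]; rfl
  have ρα : ∀ b Q, Commute (ρ b) (α Q) := by
    intro b Q
    induction Q using FreeAlgebra.induction with
    | grade0 r => rw [AlgHom.commutes]; exact (Algebra.commutes r _).symm
    | grade1 s =>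
      refine LinearMap.ext fun v => Subtype.ext ?_
      cases s with
      | inl ℓ =>
        change (ρ b (α (G.wT ℓ) v) : FT M (RD O)) = α (G.wT ℓ) (ρ b v)
        rw [ρc, αT, αT, ρc, rt_T2, rt_rt, rt_rt, dg_comm]
      | inr ℓ =>
        change (ρ b (α (G.wS ℓ) v) : FT M (RD O)) = α (G.wS ℓ) (ρ b v)
        rw [ρc, αS, αS, ρc, rt_S2, rt_rt, rt_rt, dg_comm]
    | mul x y hx hy => rw [map_mul]; exact hx.mul_right hy
    | add x y hx hy => rw [map_add]; exact hx.add_right hy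
  let l0 : PA (N₁ * M) := ⟨ℓ₀, lv.prime, pa _ lv.prime lv.nd⟩
  have ds : G.Dsc (α : G.Wd (N₁ * M) →+* Module.End O V) l0 := by
    refine ⟨fun v => ?_, ?_⟩
    · obtain ⟨K, hK, e⟩ := hC M N₁ (N₁ * M) u i lv.odd lv.three hN rfl
        (fun ℓ => (nd2 ℓ.2.1 (pb ℓ)).2) v (le v.2)
      obtain ⟨n, hn⟩ := ((hD M lv.odd lv.three).2.2.2.1 i v (le v.2).1).1
      refine ⟨K, n, hK, Subtype.ext ?_, fun Q hQ => Subtype.ext ((αc Q v).trans (e Q hQ))⟩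
      rw [← Nat.cast_smul_eq_nsmul O, Nat.cast_pow, Nat.cast_ofNat]
      exact hn
    · refine (injective_iff_map_eq_zero _).2 fun v hv => ?_
      have h1 := inj _ (hR 1 (u l0)⁻¹ _ v.2) ((αT l0 v).symm.trans (congrArg Subtype.val hv))
      have h2 := congrArg (rt O (RD O) (dg 1 (u l0))) h1
      rw [rt_rt, dg_mul, one_mul, mul_inv_cancel, dg_one, rt_one, map_zero] at h2
      exact Subtype.ext h2
  obtain ⟨t, d, co⟩ := G.ex_core hG ((lv.odd.of_dvd_nat hN).mul lv.odd) ds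
  let c : GQ →* Module.End O V := ρ.comp (cyc M)
  have cc : ∀ g (v : V), (c g v : FT M (RD O)) = rt O _ (dg 1 (cyc M g)) v := fun _ _ => rfl
  have cm := fun g k v => co.cm (f := c g) (fun Q v => LinearMap.congr_fun (ρα _ Q).eq v) k v
  refine ⟨fun g => c g * t g, fun g => c g * c g * d g, co.law.twist c (fun g k => ?_)
    (fun g k => LinearMap.ext fun v => (cm g k v).1) (fun g k => LinearMap.ext fun v => (cm g k v).2)
    (fun v => ⟨(cyc M).ker, inferInstance, isOpen_cyc M, fun x hx => ?_⟩),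
    fun p a φ hp p2 ha hφ v => ?_, fun p hp hM σ hσ => ?_, fun v => ?_, fun x hx => ?_,
    fun M' q e hq hM' σ hσ v => ?_⟩
  · exact (Commute.all (cyc M g) (cyc M k)).map ρ
  · change ρ (cyc M x) v = v
    rw [show cyc M x = 1 from hx, map_one]; rfl
  · have hp2 : ¬ p ∣ 2 * M := fun e => ((Nat.Prime.dvd_mul hp).1 e).elim
      (fun e => p2 ((Nat.prime_dvd_prime_iff_eq hp Nat.prime_two).1 e)) (nd_of hp ha)
    let ℓ : PA (N₁ * M) := ⟨p, hp, pa p hp hp2⟩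
    have e1 : u ℓ = a := Units.ext ((nd2 hp hp2).2.trans ha.symm)
    have e2 := cyc_eq hp ha hφ
    constructor
    · change (c φ (t φ v) : FT M (RD O)) = _
      rw [co.frT ℓ hφ, cc]
      change rt O _ _ (α (G.wT ℓ) v : FT M (RD O)) = _
      rw [αT, e1, e2, rt_T2, rt_rt, dg_mul, one_mul, mul_inv_cancel, dg_one, rt_one]
    · change (c φ (c φ (d φ v)) : FT M (RD O)) = _
      rw [co.frS ℓ hφ, cc, cc]
      change rt O _ _ (rt O _ _ (α (G.wS ℓ) v : FT M (RD O))) = _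
      rw [αS, e1, e2, rt_rt, rt_S2, rt_rt, dg_mul, dg_mul, one_mul, one_mul,
        show a * a * (a⁻¹ * a⁻¹) = 1 by group, dg_one, rt_one]
  · have e1 : c σ = 1 := by
      change ρ (cyc M σ) = 1
      rw [cyc_inert hp (fun e => hM (e.mul_left 2)) hσ, map_one]
    obtain ⟨a, b⟩ := co.unr ⟨p, hp, pa p hp hM⟩ hσ
    exact ⟨by simp only [e1, a, one_mul], fun g => by simp only [map_mul, e1, b, mul_one]⟩
  · refine ⟨_, co.fin v, ⟨1, by simp⟩, ?_⟩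
    rintro _ ⟨X, rfl⟩ g
    obtain ⟨P, Q, e⟩ := co.loc {(α : G.Wd (N₁ * M) →+* Module.End O V) X v} g
    obtain ⟨e1, e2⟩ := e _ (Finset.mem_singleton_self _)
    refine ⟨_, ⟨P * X, rfl⟩, _, ⟨Q * X, rfl⟩, dg 1 (cyc M g), dg 1 (cyc M g) * dg 1 (cyc M g), ?_, ?_⟩
    · change (c g (t g _) : FT M (RD O)) = _
      beta_reduce
      rw [e1, cc, map_mul, Module.End.mul_apply]
    · change (c g (c g (d g _)) : FT M (RD O)) = _
      beta_reduce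
      rw [e2, cc, cc, rt_rt, map_mul (α : G.Wd (N₁ * M) →+* Module.End O V), Module.End.mul_apply]
  · have e1 : c x * c x = 1 := by
      change ρ (cyc M x) * ρ (cyc M x) = 1
      rw [← map_mul, show cyc M x = -1 from Units.ext (cyc_conj hx), neg_mul_neg, one_mul, map_one]
    simp only [e1, co.dc hx, one_mul]
  · change (c σ (t σ v) : FT M (RD O)) = _ + rt O _ _ (c σ (c σ (d σ v)) : FT M (RD O))
    rw [co.i1 e hq hM' hσ, LinearMap.add_apply, map_add, Submodule.coe_add, cc, cc, cc, cc, rt_rt,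
      dg_mul, one_mul, inv_mul_cancel, dg_one, rt_one, Module.End.one_apply]

section xo

variable {M i ℓ₀ : ℕ}

/-- what commutes with `T_ℓ₀` preserves the carrier -/
theorem Xo_map {M' : ℕ} (f : FT M (RD O) → FT M' (RD O))
    (h1 : ∀ v ∈ Xo O M i ℓ₀, f v ∈ XD O M' i)
    (h2 : ∀ v ∈ Xo O M i ℓ₀, T2 O _ i ℓ₀ (cl M ℓ₀) v ∈ Xo O M i ℓ₀)
    (h3 : ∀ v ∈ Xo O M i ℓ₀, f (T2 O _ i ℓ₀ (cl M ℓ₀) v) = T2 O _ i ℓ₀ (cl M' ℓ₀) (f v))
    {v : FT M (RD O)} (hv : v ∈ Xo O M i ℓ₀) : f v ∈ Xo O M' i ℓ₀ := by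
  have key : ∀ n : ℕ, (T2 O (RD O) i ℓ₀ (cl M ℓ₀) ^ n) v ∈ Xo O M i ℓ₀ ∧
      f ((T2 O (RD O) i ℓ₀ (cl M ℓ₀) ^ n) v) = (T2 O (RD O) i ℓ₀ (cl M' ℓ₀) ^ n) (f v) := by
    intro n
    induction n with
    | zero => exact ⟨hv, rfl⟩
    | succ n ih =>
      rw [pow_succ', pow_succ', Module.End.mul_apply, Module.End.mul_apply]
      exact ⟨h2 _ ih.1, by rw [h3 _ ih.1, ih.2]⟩
  obtain ⟨-, n, hn, e⟩ := id hv
  exact ⟨h1 v hv, n, hn, by rw [← (key n).2, e]⟩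

theorem Xo_l0 (hK : HKV O) (lv : Lv M ℓ₀) {v : FT M (RD O)} (hv : v ∈ Xo O M i ℓ₀) :
    T2 O _ i ℓ₀ (cl M ℓ₀) v ∈ Xo O M i ℓ₀ := by
  obtain ⟨h, n, hn, e⟩ := hv
  refine ⟨((hK M i ℓ₀ _ lv.odd lv.prime (nd2 lv.prime lv.nd).1 (nd2 lv.prime lv.nd).2).2.2 v h).1,
    n, hn, ?_⟩
  rw [← Module.End.mul_apply, ← pow_succ, pow_succ', Module.End.mul_apply, e]

theorem Xo_T2 (hK : HKV O) (lv : Lv M ℓ₀) {p : ℕ} {u : (ZMod M)ˣ} (hp : p.Prime) (p2 : p ≠ 2)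
    (hu : (u : ZMod M) = p) {v : FT M (RD O)} (hv : v ∈ Xo O M i ℓ₀) :
    T2 O _ i p u v ∈ Xo O M i ℓ₀ :=
  Xo_map (fun v => T2 O (RD O) i p u v)
    (fun v hv => ((hK M i p u lv.odd hp p2 hu).2.2 v hv.1).1) (fun _ => Xo_l0 hK lv)
    (fun v _ => LinearMap.congr_fun
      (T2_comm (S := O) (R := RD O) i hp lv.prime hu (nd2 lv.prime lv.nd).2).eq v) hv

theorem Xo_rt (hK : HKV O) (hD : DIV O) (lv : Lv M ℓ₀) (h : GM M) {v : FT M (RD O)}
    (hv : v ∈ Xo O M i ℓ₀) : rt O _ h v ∈ Xo O M i ℓ₀ :=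
  Xo_map (fun v => rt O (RD O) h v) (fun v hv => ((hD M lv.odd lv.three).2.2.2.1 i v hv.1).2.1 h) (fun _ => Xo_l0 hK lv)
    (fun v _ => rt_T2 h i ℓ₀ _ v) hv

theorem Xo_inj {v : FT M (RD O)} (hv : v ∈ Xo O M i ℓ₀) (h : T2 O _ i ℓ₀ (cl M ℓ₀) v = 0) :
    v = 0 := by
  obtain ⟨-, n, hn, e⟩ := hv
  obtain ⟨n, rfl⟩ := Nat.exists_eq_add_one.2 hn
  rw [← e, pow_succ, Module.End.mul_apply, h, map_zero]

/-- right translations on the carrier -/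
def rX (hK : HKV O) (hD : DIV O) (lv : Lv M ℓ₀) (i : ℕ) : GM M →* Module.End O (Xo O M i ℓ₀) where
  toFun h := (rt O (RD O) h).toLinearMap.restrict fun _ => Xo_rt hK hD lv h
  map_one' := LinearMap.ext fun v => Subtype.ext (rt_one (S := O) (v : FT M (RD O)))
  map_mul' a b := LinearMap.ext fun v => Subtype.ext (rt_rt (S := O) a b (v : FT M (RD O))).symm

theorem rX_coe (hK : HKV O) (hD : DIV O) (lv : Lv M ℓ₀) (h : GM M) (v : Xo O M i ℓ₀) :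
    (rX hK hD lv i h v : FT M (RD O)) = rt O _ h v := rfl

end xo

theorem not_mem_pf {M p : ℕ} (hM : M ≠ 0) (hp : p.Prime) (h : p ∉ (2 * M).primeFactors) :
    ¬ p ∣ 2 * M := fun e => h (Nat.mem_primeFactors.2 ⟨hp, e, mul_ne_zero two_ne_zero hM⟩)

/-- the determinant -/
theorem det_of {M i : ℕ} [NeZero M] {V : Submodule O (FT M (RD O))} {t d : GQ → Module.End O V}
    (law : G.Law t d) (fr : ∀ (p : ℕ) (u : (ZMod M)ˣ) φ, p.Prime → p ≠ 2 → (u : ZMod M) = p →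
      IsFrob p φ → ∀ v, (d φ v : FT M (RD O)) = S2 O _ i p u v) (a p : ℕ) (g : GQ) (v : V)
    (hv : 2 ^ a • v = 0) (hp : Odd p) (hg : ∀ ζ : Qb, ζ ^ 2 ^ (a + 1) = 1 → g ζ = ζ ^ p) :
    (d g v : FT M (RD O)) = S2 O _ i p (cyc M g) v := by
  haveI : NeZero (2 ^ (a + 1)) := ⟨by positivity⟩
  obtain ⟨U, n, o, e⟩ := law.opn v
  obtain ⟨ℓ, φ, k, hl, hS, hφ, hu⟩ := G.frob (U ⊓ ((cyc M).ker ⊓ (cyc (2 ^ (a + 1))).ker))
    inferInstance (o.inter ((isOpen_cyc _).inter (isOpen_cyc _))) g (2 * M).primeFactors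
  obtain ⟨l2, lu⟩ := nd2 hl (not_mem_pf (NeZero.ne M) hl hS)
  have lo : Odd ℓ := hl.odd_of_ne_two l2
  have hd : ∀ (k : ℕ) (v : V), (d (φ ^ k) v : FT M (RD O)) = S2 O _ i (ℓ ^ k) (cl M ℓ ^ k) v := by
    intro k
    induction k with
    | zero => intro v; rw [pow_zero, pow_zero, pow_zero, law.d1, S2_one, dg_one, rt_one]; rfl
    | succ k ih =>
      intro v
      rw [pow_succ, law.dm, Module.End.mul_apply, ih, fr ℓ _ φ hl l2 lu hφ, S2_S2 i lo.pow lo,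
        pow_succ, pow_succ]
  have eg : φ ^ k = g * (g⁻¹ * φ ^ k) := by rw [mul_inv_cancel_left]
  have h1 := hd k v
  rw [eg, law.dm, Module.End.mul_apply, (e _ hu.1).1] at h1
  have h2 : cyc M g = cl M ℓ ^ k := by
    have := congrArg (cyc M) eg
    rw [map_mul, show cyc M (g⁻¹ * φ ^ k) = 1 from hu.2.1, mul_one, map_pow,
      cyc_eq hl lu hφ] at this
    exact this.symm
  have h3 : ℓ ^ k ≡ p [MOD 2 ^ (a + 1)] := by
    have := congrArg (fun x => ((cyc (2 ^ (a + 1)) x : (ZMod (2 ^ (a + 1)))ˣ) : ZMod (2 ^ (a + 1)))) eg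
    beta_reduce at this
    rw [map_mul, show cyc (2 ^ (a + 1)) (g⁻¹ * φ ^ k) = 1 from hu.2.2, mul_one, map_pow,
      Units.val_pow_eq_pow_val, cyc_frob hl (fun e => l2 ((Nat.prime_dvd_prime_iff_eq hl
        Nat.prime_two).1 (hl.dvd_of_dvd_pow e))) hφ, ← Nat.cast_pow] at this
    have z := zt_prim (2 ^ (a + 1))
    have h4 := (cyc_spec g z.pow_eq_one).symm.trans (hg _ z.pow_eq_one)
    obtain ⟨w, hw⟩ := z.isUnit (NeZero.ne _)
    rw [← hw] at h4 z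
    have h5 : w ^ (cyc (2 ^ (a + 1)) g : ZMod (2 ^ (a + 1))).val = w ^ p := by
      apply Units.ext
      push_cast
      exact h4
    rw [pow_eq_pow_iff_modEq, ← (IsPrimitiveRoot.coe_units_iff.1 z).eq_orderOf, ← this,
      ZMod.val_natCast] at h5
    exact (Nat.mod_modEq _ _).symm.trans h5
  rw [h1, h2]
  exact S2_mod i lo.pow hp h3 _ (congrArg Subtype.val hv)

theorem inert_fix {q a : ℕ} (hq : q.Prime) (q2 : q ≠ 2) {σ : GQ} (hσ : G.Inert q σ) (ζ : Qb)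
    (h : ζ ^ 2 ^ (a + 1) = 1) : σ ζ = ζ ^ 1 := by
  haveI : NeZero (2 ^ (a + 1)) := ⟨by positivity⟩
  haveI : Fact (1 < 2 ^ (a + 1)) := ⟨Nat.one_lt_two_pow (Nat.succ_ne_zero a)⟩
  rw [cyc_spec σ h, cyc_inert hq (fun e => q2 ((Nat.prime_dvd_prime_iff_eq hq
    Nat.prime_two).1 (hq.dvd_of_dvd_pow e))) hσ, Units.val_one, ZMod.val_one]

theorem ex_two (hD : DIV O) {M i : ℕ} (ho : Odd M) (h3 : 3 ≤ M) {V : Submodule O (FT M (RD O))}
    (le : V ≤ XD O M i) (v : V) : ∃ a, 2 ^ a • v = 0 := by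
  obtain ⟨n, hn⟩ := ((hD M ho h3).2.2.2.1 i v (le v.2)).1
  refine ⟨n, Subtype.ext ?_⟩
  rw [← Nat.cast_smul_eq_nsmul O, Nat.cast_pow, Nat.cast_ofNat]
  exact hn

theorem Xo_le {M i ℓ₀ : ℕ} : Xo O M i ℓ₀ ≤ XD O M i := fun _ h => h.1

/-- **GT** -/
theorem gt (hC : CLGD O) (hD : DIV O) (hK : HKV O) (hG : G.GAL2) : GT O := by
  intro M _ i ℓ₀ lv
  obtain ⟨t, d, law, fr, unr, fin, dc, -⟩ := core hC hD hG lv dvd_rfl (Xo O M i ℓ₀)
    (fun v hv => ⟨hv.1, Uq_self v⟩) (fun p u hp p2 hu v => Xo_T2 hK lv hp p2 hu)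
    (fun a d v => Xo_rt hK hD lv _) (fun v => Xo_inj)
  have frS := fun p u φ a b c e v => (fr p u φ a b c e v).2
  have cm : ∀ h g v, rX hK hD lv i h (t g v) = t g (rX hK hD lv i h v) ∧
      rX hK hD lv i h (d g v) = d g (rX hK hD lv i h v) := fun h =>
    law.nat law (rX hK hD lv i h).toAddMonoidHom (2 * M).primeFactors fun ℓ φ hl hS hφ v => by
      obtain ⟨l2, lu⟩ := nd2 hl (not_mem_pf (NeZero.ne M) hl hS)
      constructor <;> apply Subtype.ext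
      · change rt O _ h (t φ v : FT M (RD O)) = t φ (rX hK hD lv i h v)
        rw [(fr ℓ _ φ hl l2 lu hφ _).1, (fr ℓ _ φ hl l2 lu hφ _).1, rt_T2, rX_coe]
      · change rt O _ h (d φ v : FT M (RD O)) = d φ (rX hK hD lv i h v)
        rw [(fr ℓ _ φ hl l2 lu hφ _).2, (fr ℓ _ φ hl l2 lu hφ _).2, rt_S2, rX_coe]
  refine ⟨t, d, law, fun p u φ a b c e v => (fr p u φ a b c e v).1, frS, unr, fun v => ?_,
    det_of law frS, dc, fun M₀ q sp σ hσ v hv => ?_⟩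
  · classical
    obtain ⟨s, hs, hv, cl⟩ := fin v
    have hf : (Set.image2 (fun h w => rX hK hD lv i h w) Set.univ s).Finite :=
      Set.Finite.image2 _ Set.finite_univ hs
    refine ⟨hf.toFinset, hf.mem_toFinset.2 ⟨1, trivial, v, hv, by simp⟩, fun w hw => ?_⟩
    obtain ⟨h, -, x, hx, rfl⟩ := hf.mem_toFinset.1 hw
    refine ⟨fun g => ?_, fun h' w' e => hf.mem_toFinset.2 ⟨h' * h, trivial, x, hx, ?_⟩⟩
    · obtain ⟨w₁, a₁, w₂, a₂, h₁, h₂, e₁, e₂⟩ := cl x hx g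
      refine ⟨hf.mem_toFinset.2 ⟨h * h₁, trivial, w₁, a₁, ?_⟩,
        hf.mem_toFinset.2 ⟨h * h₂, trivial, w₂, a₂, ?_⟩⟩
      · beta_reduce
        rw [← (cm h g x).1]
        exact Subtype.ext (by rw [rX_coe, rX_coe, e₁, rt_rt])
      · beta_reduce
        rw [← (cm h g x).2]
        exact Subtype.ext (by rw [rX_coe, rX_coe, e₂, rt_rt])
    · exact Subtype.ext (by rw [e, rX_coe, rX_coe, rt_rt])
  · obtain ⟨t', d', law', fr', -, -, -, i1⟩ := core hC hD hG lv sp.dvd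
      (Xo O M i ℓ₀ ⊓ Iv O _ (Uq M M₀)) (fun v hv => ⟨hv.1.1, hv.2⟩)
      (fun p u hp p2 hu v hv => ⟨Xo_T2 hK lv hp p2 hu hv.1, Iv_T2 i p u hv.2⟩)
      (fun a d v hv => ⟨Xo_rt hK hD lv _ hv.1, Uq_dg a d hv.2⟩) (fun v hv => Xo_inj hv.1)
    have q2 : q ≠ 2 := fun e => by
      have := sp.odd
      rw [sp.eq, e] at this
      exact absurd this (by simp)
    have nat := law'.nat law (Submodule.inclusion (inf_le_left : Xo O M i ℓ₀ ⊓ Iv O _ (Uq M M₀) ≤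
      Xo O M i ℓ₀)).toAddMonoidHom (2 * M).primeFactors (fun ℓ φ hl hS hφ v => by
        obtain ⟨l2, lu⟩ := nd2 hl (not_mem_pf (NeZero.ne M) hl hS)
        exact ⟨Subtype.ext (((fr' ℓ _ φ hl l2 lu hφ v).1).trans
            (fr ℓ _ φ hl l2 lu hφ ⟨v, v.2.1⟩).1.symm),
          Subtype.ext (((fr' ℓ _ φ hl l2 lu hφ v).2).trans
            (fr ℓ _ φ hl l2 lu hφ ⟨v, v.2.1⟩).2.symm)⟩)
      σ ⟨v, v.2, hv⟩
    have h1 := i1 (M₀ * M₀) q (by rw [mul_assoc, ← sp.eq]) sp.prime (fun e =>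
      (Nat.Prime.coprime_iff_not_dvd sp.prime).1 sp.cop.symm
        (((Nat.Prime.dvd_mul sp.prime).1 e).elim id id)) σ hσ ⟨v, v.2, hv⟩
    obtain ⟨a, ha⟩ := ex_two hD lv.odd lv.three Xo_le v
    have h2 := det_of law frS a 1 σ v ha odd_one (inert_fix sp.prime q2 hσ)
    have h3 : (t σ v : FT M (RD O)) = t' σ ⟨v, v.2, hv⟩ := (congrArg Subtype.val nat.1).symm
    have h4 : (d' σ ⟨v, v.2, hv⟩ : FT M (RD O)) = d σ v := congrArg Subtype.val nat.2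
    rw [h3, h1, h4, h2, S2_one, rt_rt, dg_mul, one_mul, inv_mul_cancel, add_comm]

end Vale.Agent.P022D.Gt
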