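import Vale.Agent.P022D.V.Form
import Vale.Agent.P022D.G.Ops
import Vale.Agent.P022.H853.L3.Cyc

/-!
# P022D, block Gt: Galois operators on all tuples (definitions and statements)
-/

set_option linter.all false

open Matrix
open scoped MatrixGroups

noncomputable section

namespace Vale.Agent.P022D.Gt

open Vale.Agent.P022 Vale.Agent.P022D.V Vale.Agent.P022.H853

variable (O : Type) [CommRing O] [Co O]

/-- the dictionary with classical forms, twisted at all primes (`M = N₁ N₂`, level `N₁ M`) -/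
def CLG : Prop := ∀ (M N₁ N' : ℕ) [NeZero N'] (u : PA N' → (ZMod M)ˣ) (i : ℕ), Odd M → N₁ ∣ M →
  N' = N₁ * M → (∀ ℓ, (u ℓ : ZMod M) = (ℓ.1 : ZMod M)) → ∀ Q : G.Wd N', G.sg N' i Q = 0 →
  ∀ w ∈ L O M (i + 1) ⊓ Iv O _ (Uq M N₁), wd O (AA O) i u u Q w = 0

/-- the same for the divisible carrier -/
def CLGD : Prop := ∀ (M N₁ N' : ℕ) [NeZero N'] (u : PA N' → (ZMod M)ˣ) (i : ℕ), Odd M → 3 ≤ M →
  N₁ ∣ M → N' = N₁ * M → (∀ ℓ, (u ℓ : ZMod M) = (ℓ.1 : ZMod M)) →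
  ∀ v ∈ XD O M i ⊓ Iv O _ (Uq M N₁), ∃ K : Finset ℕ, (∀ j ∈ K, 1 ≤ j) ∧
    ∀ Q : G.Wd N', (∀ j ∈ K, G.sg N' j Q = 0) → wd O (RD O) i u u Q v = 0

/-- the class of `p` -/
def cl (M p : ℕ) : (ZMod M)ˣ := if h : Nat.Coprime p M then ZMod.unitOfCoprime p h else 1

theorem cl_coe {M p : ℕ} (h : Nat.Coprime p M) : (cl M p : ZMod M) = p := by
  rw [cl, dif_pos h, ZMod.coe_unitOfCoprime]

theorem pow_fix {X : Type} [AddCommGroup X] [Module O X] {T : Module.End O X} {n : ℕ} {v : X}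
    (h : (T ^ n) v = v) (k : ℕ) : (T ^ (n * k)) v = v := by
  induction k with
  | zero => rfl
  | succ k ih => rw [Nat.mul_succ, pow_add, Module.End.mul_apply, h, ih]

/-- **the carrier**: the part of `XD` on which `T_ℓ₀` is invertible -/
def Xo (M i ℓ₀ : ℕ) : Submodule O (FT M (RD O)) where
  carrier := {v | v ∈ XD O M i ∧ ∃ n, 0 < n ∧ (T2 O (RD O) i ℓ₀ (cl M ℓ₀) ^ n) v = v}
  zero_mem' := ⟨zero_mem _, 1, one_pos, map_zero _⟩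
  add_mem' := by
    rintro v w ⟨h, n, hn, e⟩ ⟨h', m, hm, e'⟩
    refine ⟨add_mem h h', n * m, Nat.mul_pos hn hm, ?_⟩
    rw [map_add, pow_fix O e, mul_comm n, pow_fix O e']
  smul_mem' := by
    rintro c v ⟨h, n, hn, e⟩
    exact ⟨Submodule.smul_mem _ c h, n, hn, by rw [map_smul, e]⟩

/-- the hypotheses on the level -/
structure Lv (M ℓ₀ : ℕ) : Prop where
  odd : Odd M
  three : 3 ≤ M
  prime : ℓ₀.Prime
  nd : ¬ ℓ₀ ∣ 2 * M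

variable {O}

/-- **the Galois operators** on the carrier -/
structure Ga (M : ℕ) [NeZero M] (i ℓ₀ : ℕ) (t d : GQ → Module.End O (Xo O M i ℓ₀)) : Prop where
  law : G.Law t d
  frT : ∀ (p : ℕ) (u : (ZMod M)ˣ) φ, p.Prime → p ≠ 2 → (u : ZMod M) = p → IsFrob p φ →
    ∀ v, (t φ v : FT M (RD O)) = T2 O _ i p u v
  frS : ∀ (p : ℕ) (u : (ZMod M)ˣ) φ, p.Prime → p ≠ 2 → (u : ZMod M) = p → IsFrob p φ →
    ∀ v, (d φ v : FT M (RD O)) = S2 O _ i p u v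
  unr : ∀ p : ℕ, p.Prime → ¬ p ∣ 2 * M → ∀ σ, G.Inert p σ → d σ = 1 ∧ ∀ g, t (g * σ) = t g
  fin : ∀ v, ∃ s : Finset (Xo O M i ℓ₀), v ∈ s ∧ ∀ w ∈ s,
    (∀ g, t g w ∈ s ∧ d g w ∈ s) ∧ ∀ (h : GM M) (w' : Xo O M i ℓ₀),
      (w' : FT M (RD O)) = rt O _ h w → w' ∈ s
  det : ∀ (a p : ℕ) (g : GQ) (v : Xo O M i ℓ₀), 2 ^ a • v = 0 → Odd p →
    (∀ ζ : Qb, ζ ^ 2 ^ (a + 1) = 1 → g ζ = ζ ^ p) →
    (d g v : FT M (RD O)) = S2 O _ i p (cyc M g) v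
  dc : ∀ c, IsConj c → d c = -1
  i1 : ∀ M₀ q, Sp M M₀ q → ∀ σ, G.Inert q σ → ∀ v : Xo O M i ℓ₀,
    (v : FT M (RD O)) ∈ Iv O _ (Uq M M₀) →
    (t σ v : FT M (RD O)) = rt O _ (dg (cyc M σ) 1) v + rt O _ (dg 1 (cyc M σ)) v

variable (O)

/-- **GT** -/
def GT : Prop := ∀ (M : ℕ) [NeZero M] (i ℓ₀ : ℕ), Lv M ℓ₀ →
  ∃ t d : GQ → Module.End O (Xo O M i ℓ₀), Ga M i ℓ₀ t d

end Vale.Agent.P022D.Gt
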